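import Vale.Agent.P338.Main

namespace Vale.Agent.Results.P338.Sublog

open Vale.Agent.P338

theorem result :
    (∃ A : TM, A.Multiplies ∧ ∃ C : ℝ, ∀ n : ℕ, 2 ≤ n →
      (A.T n : ℝ) ≤ C * n * (Real.log n) ^ (1 - (1 : ℝ) / 2 ^ 100)) ∧
    ¬ ∀ A : TM, A.Multiplies → ∃ c : ℝ, 0 < c ∧ ∃ N : ℕ, 2 ≤ N ∧ ∀ n : ℕ, N ≤ n →
      c * n * Real.log n ≤ (A.T n : ℝ) := by
  obtain ⟨A, hA, C, hC⟩ := exists_machine
  refine ⟨⟨A, hA, C, fun n hn => by rw [mul_assoc]; exact hC n hn⟩, fun h => ?_⟩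
  obtain ⟨c, hc, N, -, hN⟩ := h A hA
  exact not_lower hc hC hN

end Vale.Agent.Results.P338.Sublog
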